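import Vale.Agent.P153.R2.M1.Main
import Mathlib.Probability.Distributions.Uniform
import Mathlib.Probability.ProbabilityMassFunction.Integrals

/-!
# P167: copy of `P153/R2/M1/Fin.lean` without the import of `P153/R2/Base/Defs.lean`

(`Base/Defs.lean` imports the flattened library `P153/Bd5`, which cannot be imported together with
the modular files `P153/Topo/..`, `P145/FB/..` used by `P167/Defs.lean`.) The names are the same;
`Ex` is copied from `Base/Defs.lean`. Never import the original file below `P167`.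

# P153, block M1: finite explorations

The theorems of `Main.lean` for uniform laws on finite sets of outcomes, explorations with finitely
many steps and drivers frozen after the last step.
-/

set_option linter.unusedVariables false
set_option warn.classDefReducibility false

namespace Vale.Agent.P153.R2

open Set

/-- The average of `F` over the finite set `S` (zero if `S` is empty or infinite). -/
noncomputable def Ex {α : Type*} (S : Set α) (F : α → ℝ) : ℝ := (∑ᶠ a ∈ S, F a) / (S.ncard : ℝ)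

end Vale.Agent.P153.R2

namespace Vale.Agent.P153.M1

open MeasureTheory ProbabilityTheory Filter Topology Set Complex Vale.Agent.P164
open Vale.Agent.P153.R2 (Ex)
open scoped NNReal ENNReal

/-- A finite exploration: the outcomes `C`, the path `r`, the number `K` of steps, the times `c` of
the steps and the driver `w`. -/
structure Expl (A B : Type*) where
  C : Set A
  r : A → ℕ → B
  K : A → ℕ
  c : A → ℕ → ℝ
  w : A → C(ℝ≥0, ℝ)

namespace Expl

variable {A B : Type*} (X : Expl A B)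

/-- The value of the driver at step `k`. -/
def V (h : A) (k : ℕ) : ℝ := X.w h (X.c h k).toNNReal

/-- The driver as a function on the line. -/
def W (h : A) (t : ℝ) : ℝ := X.w h t.toNNReal

/-- `κ` is a stopping index. -/
def StopIx (κ : A → ℕ) : Prop :=
  ∀ h ∈ X.C, ∀ h' ∈ X.C, (∀ j ≤ κ h, X.r h' j = X.r h j) → κ h' = κ h

/-- `Y` depends only on the first `κ` steps. -/
def StopMeas (κ : A → ℕ) (Y : A → ℝ) : Prop :=
  ∀ h ∈ X.C, ∀ h' ∈ X.C, (∀ j ≤ κ h, X.r h' j = X.r h j) → Y h' = Y h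

/-- The exploration is well formed. -/
structure WF : Prop where
  fin : X.C.Finite
  ne : X.C.Nonempty
  pos : ∀ h ∈ X.C, 0 < X.K h
  stopK : X.StopIx X.K
  adc : ∀ h ∈ X.C, ∀ h' ∈ X.C, ∀ k ≤ X.K h, (∀ j ≤ k, X.r h' j = X.r h j) →
    X.c h' k = X.c h k ∧ X.V h' k = X.V h k
  c0 : ∀ h ∈ X.C, X.c h 0 = 0
  w0 : ∀ h ∈ X.C, X.w h 0 = 0
  mono : ∀ h ∈ X.C, ∀ k < X.K h, X.c h k ≤ X.c h (k + 1)
  const : ∀ h ∈ X.C, ∀ t : ℝ≥0, X.c h (X.K h) ≤ t → X.w h t = X.V h (X.K h)

end Expl

/-- A sequence of finite explorations with small steps, which leave all compact sets before the last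
step, and with the approximate martingale property of the observable. -/
structure Asym {A B : Type*} (X : ℕ → Expl A B) : Prop where
  wf : ∀ n, (X n).WF
  small : ∀ T R : ℝ, ∃ e : ℕ → ℝ, Tendsto e atTop (𝓝 0) ∧ ∀ᶠ n in atTop, ∀ h ∈ (X n).C,
    ∀ k, k + 1 < (X n).K h → (∀ j ≤ k, (X n).c h j ≤ T ∧ |(X n).V h j| ≤ R) →
    (X n).c h (k + 1) - (X n).c h k ≤ e n ∧ ∀ u : ℝ≥0, (X n).c h k ≤ u →
      (u : ℝ) ≤ (X n).c h (k + 1) → |(X n).w h u - (X n).V h k| ≤ e n
  far : ∀ T R : ℝ, ∀ᶠ n in atTop, ∀ h ∈ (X n).C, ∃ k < (X n).K h,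
    T < (X n).c h k ∨ R < |(X n).V h k|
  mart : ∀ (z : ℂ) (T R : ℝ), 0 ≤ T → 0 < R → 0 < z.im → 16 * (T + 1) ≤ z.im ^ 2 →
    ∃ zn : ℕ → ℂ, Tendsto zn atTop (𝓝 z) ∧ ∀ (κ κ' : ℕ → A → ℕ) (Y : ℕ → A → ℝ),
      (∀ n, (X n).StopIx (κ n)) → (∀ n, (X n).StopIx (κ' n)) →
      (∀ n, ∀ h ∈ (X n).C, κ n h ≤ κ' n h) → (∀ n, ∀ h ∈ (X n).C, κ' n h < (X n).K h) →
      (∀ n, ∀ h ∈ (X n).C, ∀ j < κ' n h, (X n).c h j ≤ T ∧ |(X n).V h j| ≤ R) →
      (∀ n, (X n).StopMeas (κ n) (Y n)) → (∀ n, ∀ h ∈ (X n).C, |Y n h| ≤ 1) →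
      Tendsto (fun n => Ex (X n).C fun h =>
        (arg (flow ((X n).W h) ((X n).c h (κ' n h)) (zn n)) -
          arg (flow ((X n).W h) ((X n).c h (κ n h)) (zn n))) * Y n h) atTop (𝓝 0)

namespace Expl

variable {A B : Type*} {X : Expl A B}

theorem WF.K_agree (hX : X.WF) {h h' : A} (hh : h ∈ X.C) (hh' : h' ∈ X.C) {k : ℕ}
    (ha : ∀ j ≤ k, X.r h' j = X.r h j) : (X.K h ≤ k → X.K h' = X.K h) ∧ (k < X.K h → k < X.K h') := by
  refine ⟨fun hk => hX.stopK h hh h' hh' fun j hj => ha j (hj.trans hk), fun hk => ?_⟩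
  by_contra hc
  push Not at hc
  have := hX.stopK h' hh' h hh fun j hj => (ha j (hj.trans hc)).symm
  omega

/-- The times, extended to all the indices. -/
def tt (X : Expl A B) (h : A) (k : ℕ) : ℝ :=
  if k ≤ X.K h then X.c h k else X.c h (X.K h) + ((k : ℝ) - X.K h)

theorem tt_le {h : A} {k : ℕ} (hk : k ≤ X.K h) : X.tt h k = X.c h k := if_pos hk

theorem tt_gt {h : A} {k : ℕ} (hk : X.K h < k) :
    X.tt h k = X.c h (X.K h) + ((k : ℝ) - X.K h) := if_neg (by omega)

theorem tt_ge {h : A} {k : ℕ} (hk : X.K h ≤ k) : X.c h (X.K h) ≤ X.tt h k := by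
  rcases hk.eq_or_lt with h1 | h1
  · rw [tt_le h1.ge, h1]
  · rw [tt_gt h1]
    have : (X.K h : ℝ) < k := by exact_mod_cast h1
    linarith

theorem WF.tt_mono (hX : X.WF) {h : A} (hh : h ∈ X.C) : Monotone (X.tt h) := by
  refine monotone_nat_of_le_succ fun k => ?_
  rcases lt_trichotomy k (X.K h) with hk | hk | hk
  · rw [tt_le hk.le, tt_le (show k + 1 ≤ X.K h from hk)]
    exact hX.mono h hh k hk
  · rw [tt_le hk.le, hk]
    exact tt_ge (Nat.le_succ _)
  · rw [tt_gt hk, tt_gt (by omega)]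
    push_cast
    linarith

theorem WF.tt_nonneg (hX : X.WF) {h : A} (hh : h ∈ X.C) (k : ℕ) : 0 ≤ X.tt h k := by
  have := hX.tt_mono hh (Nat.zero_le k)
  rwa [tt_le (Nat.zero_le _), hX.c0 h hh] at this

theorem WF.cK_nonneg (hX : X.WF) {h : A} (hh : h ∈ X.C) : 0 ≤ X.c h (X.K h) := by
  have := hX.tt_nonneg hh (X.K h)
  rwa [tt_le le_rfl] at this

/-- The value at an index. -/
theorem W_tt_le {h : A} {k : ℕ} (hk : k ≤ X.K h) : X.W h (X.tt h k) = X.V h k := by
  rw [tt_le hk]; rfl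

theorem WF.W_ge (hX : X.WF) {h : A} (hh : h ∈ X.C) {t : ℝ} (ht : X.c h (X.K h) ≤ t) :
    X.W h t = X.V h (X.K h) := by
  refine hX.const h hh _ ?_
  rw [Real.coe_toNNReal _ ((hX.cK_nonneg hh).trans ht)]
  exact ht

theorem WF.agree (hX : X.WF) {h h' : A} (hh : h ∈ X.C) (hh' : h' ∈ X.C) {k : ℕ}
    (ha : ∀ j ≤ k, X.r h' j = X.r h j) :
    X.tt h' k = X.tt h k ∧ X.W h' (X.tt h' k) = X.W h (X.tt h k) := by
  obtain ⟨h1, h2⟩ := hX.K_agree hh hh' ha
  rcases lt_or_ge k (X.K h) with hk | hk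
  · obtain ⟨h3, h4⟩ := hX.adc h hh h' hh' k hk.le ha
    rw [W_tt_le hk.le, W_tt_le (h2 hk).le, tt_le hk.le, tt_le (h2 hk).le]
    exact ⟨h3, h4⟩
  · have h3 := h1 hk
    obtain ⟨h4, h5⟩ := hX.adc h hh h' hh' (X.K h) le_rfl fun j hj => ha j (hj.trans hk)
    rw [hX.W_ge hh' (tt_ge (by omega)), hX.W_ge hh (tt_ge hk), h3]
    refine ⟨?_, h5⟩
    rcases hk.eq_or_lt with h6 | h6
    · rw [tt_le (by omega), tt_le (by omega), ← h6]
      exact h4
    · rw [tt_gt (by omega), tt_gt h6, h3, h4]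

/-- The information of the first `k` steps. -/
def hs (X : Expl A B) (k : ℕ) : MeasurableSpace X.C where
  MeasurableSet' s := ∀ h h' : X.C, (∀ j ≤ k, X.r h' j = X.r h j) → h ∈ s → h' ∈ s
  measurableSet_empty := fun _ _ _ h => h
  measurableSet_compl := fun s hs h h' ha hh hc => hh (hs h' h (fun j hj => (ha j hj).symm) hc)
  measurableSet_iUnion := fun f hf h h' ha hh => by
    obtain ⟨i, hi⟩ := mem_iUnion.1 hh
    exact mem_iUnion.2 ⟨i, hf i h h' ha hi⟩

/-- The filtration. -/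
def fil (X : Expl A B) : Filtration ℕ (⊤ : MeasurableSpace X.C) where
  seq := X.hs
  mono' := fun i j hij s hs h h' ha hh => hs h h' (fun l hl => ha l (hl.trans hij)) hh
  le' := fun _ => le_top

theorem meas_fil {k : ℕ} {E : Type*} [MeasurableSpace E] {f : X.C → E}
    (hf : ∀ h h' : X.C, (∀ j ≤ k, X.r h' j = X.r h j) → f h' = f h) : Measurable[X.fil k] f := by
  intro s _
  change ∀ h h' : X.C, _ → _ → _
  intro h h' ha hh
  change f h' ∈ s
  rw [hf h h' ha]
  exact hh

/-- Stopping indices of the filtration. -/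
theorem stop_of {κ : X.C → ℕ} (hκ : IsStop X.fil κ) {h h' : X.C}
    (ha : ∀ j ≤ κ h, X.r h' j = X.r h j) : κ h' = κ h := by
  have h1 : κ h' ≤ κ h := hκ (κ h) h h' ha (le_refl (κ h))
  refine le_antisymm h1 ?_
  exact hκ (κ h') h' h (fun j hj => (ha j (hj.trans h1)).symm) (le_refl (κ h'))

theorem past_of {κ : X.C → ℕ} (hκ : IsStop X.fil κ) {Y : X.C → ℝ}
    (hY : Past X.fil κ Y) {h h' : X.C} (ha : ∀ j ≤ κ h, X.r h' j = X.r h j) :
    Y h' = Y h := by
  have h1 := stop_of hκ ha
  have h2 := hY (κ h) (measurableSet_singleton (Y h)) h h' ha (by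
    change ({ω | κ ω ≤ κ h}.indicator Y) h = Y h
    rw [indicator_of_mem (show h ∈ {ω | κ ω ≤ κ h} from le_refl (κ h))])
  have h3 : ({ω | κ ω ≤ κ h}.indicator Y) h' = Y h := h2
  rwa [indicator_of_mem (show h' ∈ {ω | κ ω ≤ κ h} from h1.le)] at h3

/-- The uniform law on the outcomes. -/
noncomputable def pr (X : Expl A B) (hf : X.C.Finite) (hn : X.C.Nonempty) :
    @Measure X.C ⊤ :=
  haveI := hf.fintype
  haveI := hn.to_subtype
  @PMF.toMeasure _ ⊤ (PMF.uniformOfFintype X.C)

theorem pr_prob (hf : X.C.Finite) (hn : X.C.Nonempty) :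
    @IsProbabilityMeasure _ ⊤ (X.pr hf hn) := by
  let _ := hf.fintype
  have _ := hn.to_subtype
  let _ : MeasurableSpace X.C := ⊤
  exact PMF.toMeasure.isProbabilityMeasure _

theorem integral_pr (hf : X.C.Finite) (hn : X.C.Nonempty) (f : A → ℝ) :
    @integral _ _ _ _ ⊤ (X.pr hf hn) (fun h : X.C => f h) = Ex X.C f := by
  let _ := hf.fintype
  have _ := hn.to_subtype
  let _ : MeasurableSpace X.C := ⊤
  have : MeasurableSingletonClass X.C := ⟨fun _ => trivial⟩
  have h1 : ∫ h : X.C, f h ∂(PMF.uniformOfFintype X.C).toMeasure =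
      ∑ h : X.C, ((PMF.uniformOfFintype X.C) h).toReal • f h := PMF.integral_eq_sum _ _
  change ∫ h : X.C, f h ∂(PMF.uniformOfFintype X.C).toMeasure = _
  rw [h1]
  have h2 : ∑ᶠ a ∈ X.C, f a = ∑ h : X.C, f h := by
    rw [← finsum_eq_sum_of_fintype (fun h : X.C => f h)]
    exact (finsum_set_coe_eq_finsum_mem (f := f) X.C).symm
  rw [Ex, h2, Finset.sum_div]
  refine Finset.sum_congr rfl fun h _ => ?_
  rw [PMF.uniformOfFintype_apply, ENNReal.toReal_inv, ENNReal.toReal_natCast, smul_eq_mul,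
    ← Nat.card_coe_set_eq, Nat.card_eq_fintype_card]
  ring

end Expl

section

variable {A B : Type*} {X : ℕ → Expl A B}

instance msC (n : ℕ) : MeasurableSpace (X n).C := ⊤

/-- The system of a sequence of explorations. -/
noncomputable def sysX (X : ℕ → Expl A B) : Sys (fun n => (X n).C) where
  F := fun n => (X n).fil
  W := fun n h => (X n).W h
  τ := fun n k h => (X n).tt h k

theorem W_cont (n : ℕ) (h : (X n).C) : ContinuousOn ((X n).W h) (Ici 0) :=
  (((X n).w h).continuous.comp continuous_real_toNNReal).continuousOn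

namespace Asym

variable (hX : Asym X)
include hX

/-- For large `n` the exit is before the last step. -/
theorem lt_K {T R : ℝ} : ∀ᶠ n in atTop, ∀ (h : (X n).C) (k : ℕ), (sysX X).Bef T R n h k →
    k < (X n).K h := by
  filter_upwards [hX.far T R] with n hn h k hk
  obtain ⟨j, hj, h1⟩ := hn h h.2
  by_contra hc
  push Not at hc
  obtain ⟨h2, h3⟩ := hk j (hj.trans_le hc)
  have e1 : (sysX X).τ n j h = (X n).c h j := Expl.tt_le hj.le
  have e2 : (sysX X).V n j h = (X n).V h j := Expl.W_tt_le hj.le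
  rw [e1] at h2
  rw [e2] at h3
  rcases h1 with h1 | h1 <;> linarith

theorem ok : (sysX X).Ok where
  adV := fun n k => Expl.meas_fil fun h h' ha => ((hX.wf n).agree h.2 h'.2 ha).2
  adτ := fun n k => Expl.meas_fil fun h h' ha => ((hX.wf n).agree h.2 h'.2 ha).1
  measW := fun n u => measurable_from_top
  zero := fun n h => by
    change (X n).tt h 0 = 0
    rw [Expl.tt_le (Nat.zero_le _)]
    exact (hX.wf n).c0 h h.2
  W0 := fun n h => by
    change (X n).w h (Real.toNNReal 0) = 0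
    rw [Real.toNNReal_zero]
    exact (hX.wf n).w0 h h.2
  mono := fun n h => (hX.wf n).tt_mono h.2
  unb := fun n h T => by
    obtain ⟨m, hm⟩ := exists_nat_gt T
    refine ⟨(X n).K h + 1 + m, ?_⟩
    change T < (X n).tt h _
    rw [Expl.tt_gt (by omega)]
    have := (hX.wf n).cK_nonneg h.2
    push_cast
    linarith
  small := by
    intro T R
    obtain ⟨e, he, hsm⟩ := hX.small T R
    have hlt := hX.lt_K (T := T) (R := R)
    obtain ⟨N, hN⟩ := eventually_atTop.1 (hsm.and hlt)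
    -- a bound for a single `n`
    have hone : ∀ n, ∃ b : ℝ, ∀ (h : (X n).C) (k : ℕ),
        (sysX X).τ n (k + 1) h - (sysX X).τ n k h ≤ b ∧
        ∀ u ∈ Icc ((sysX X).τ n k h) ((sysX X).τ n (k + 1) h),
          |(sysX X).W n h u - (sysX X).W n h ((sysX X).τ n k h)| ≤ b := by
      intro n
      have hb : ∀ h : (X n).C, ∃ b : ℝ, ∀ k : ℕ,
          (sysX X).τ n (k + 1) h - (sysX X).τ n k h ≤ b ∧
          ∀ u ∈ Icc ((sysX X).τ n k h) ((sysX X).τ n (k + 1) h),
            |(sysX X).W n h u - (sysX X).W n h ((sysX X).τ n k h)| ≤ b := by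
        intro h
        have hwf := hX.wf n
        obtain ⟨M, hM⟩ := (isCompact_Icc (a := (0 : ℝ)) (b := (X n).c h ((X n).K h))).bddAbove_image
          ((W_cont (X := X) n h).mono Icc_subset_Ici_self).abs
        have hM' : ∀ u : ℝ, 0 ≤ u → |(X n).W h u| ≤ M := by
          intro u hu
          rcases le_total u ((X n).c h ((X n).K h)) with h1 | h1
          · exact hM (mem_image_of_mem _ ⟨hu, h1⟩)
          · rw [hwf.W_ge h.2 h1, ← hwf.W_ge h.2 le_rfl]
            exact hM (mem_image_of_mem _ ⟨hwf.cK_nonneg h.2, le_rfl⟩)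
        have hM0 : 0 ≤ M := (abs_nonneg _).trans (hM' 0 le_rfl)
        have hc0 := hwf.cK_nonneg h.2
        refine ⟨(X n).c h ((X n).K h) + 1 + 2 * M, fun k => ⟨?_, fun u hu => ?_⟩⟩
        · change (X n).tt h (k + 1) - (X n).tt h k ≤ _
          have h1 := hwf.tt_nonneg h.2 k
          rcases lt_trichotomy k ((X n).K h) with hk | hk | hk
          · have h2 := hwf.tt_mono h.2 (show k + 1 ≤ (X n).K h from hk)
            rw [Expl.tt_le (le_refl ((X n).K h))] at h2
            linarith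
          · rw [Expl.tt_le hk.le, Expl.tt_gt (by omega), hk]
            push_cast
            linarith
          · rw [Expl.tt_gt hk, Expl.tt_gt (by omega)]
            push_cast
            linarith
        · have h1 : 0 ≤ (X n).tt h k := hwf.tt_nonneg h.2 k
          have h2 : 0 ≤ u := h1.trans hu.1
          refine (abs_sub _ _).trans ?_
          have h3 := hM' u h2
          have h4 := hM' _ h1
          change |(X n).W h u| + |(X n).W h ((X n).tt h k)| ≤ _
          linarith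
      choose b hb' using hb
      have := (hX.wf n).fin.fintype
      refine ⟨∑ h : (X n).C, |b h|, fun h k => ?_⟩
      have h1 : b h ≤ ∑ h : (X n).C, |b h| := (le_abs_self _).trans
        (Finset.single_le_sum (f := fun h => |b h|) (fun i _ => abs_nonneg _) (Finset.mem_univ h))
      exact ⟨(hb' h k).1.trans h1, fun u hu => ((hb' h k).2 u hu).trans h1⟩
    choose b hb using hone
    refine ⟨fun n => if n < N then b n else e n, ?_, ?_⟩
    · refine he.congr' ?_
      filter_upwards [eventually_ge_atTop N] with n hn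
      rw [if_neg (by omega)]
    · intro n h k hk
      dsimp only
      split_ifs with hn
      · exact hb n h k
      · obtain ⟨h1, h2⟩ := hN n (not_lt.1 hn)
        have hkK := h2 h (k + 1) hk
        have e1 : (sysX X).τ n (k + 1) h = (X n).c h (k + 1) := Expl.tt_le hkK.le
        have e2 : (sysX X).τ n k h = (X n).c h k := Expl.tt_le (by omega)
        have e3 : (sysX X).W n h ((X n).c h k) = (X n).V h k := rfl
        obtain ⟨h3, h4⟩ := h1 h h.2 k hkK (fun j hj => by
          obtain ⟨h5, h6⟩ := hk j (Nat.lt_succ_of_le hj)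
          have e4 : (sysX X).τ n j h = (X n).c h j := Expl.tt_le (by omega)
          have e5 : (sysX X).V n j h = (X n).V h j := Expl.W_tt_le (by omega)
          rw [e4] at h5
          rw [e5] at h6
          exact ⟨h5, h6⟩)
        rw [e1, e2, e3]
        refine ⟨h3, fun u hu => ?_⟩
        have hc0 : 0 ≤ (X n).c h k := by
          have := (hX.wf n).tt_nonneg h.2 k
          rwa [Expl.tt_le (by omega)] at this
        have hu0 : 0 ≤ u := hc0.trans hu.1
        exact h4 u.toNNReal (by rw [Real.coe_toNNReal _ hu0]; exact hu.1)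
          (by rw [Real.coe_toNNReal _ hu0]; exact hu.2)

/-- The laws. -/
noncomputable def prX (n : ℕ) : Measure (X n).C := (X n).pr (hX.wf n).fin (hX.wf n).ne

theorem prX_prob (n : ℕ) : IsProbabilityMeasure (hX.prX n) :=
  Expl.pr_prob (hX.wf n).fin (hX.wf n).ne

theorem integral_prX (n : ℕ) (f : A → ℝ) : ∫ h, f h ∂(hX.prX n) = Ex (X n).C f :=
  Expl.integral_pr (hX.wf n).fin (hX.wf n).ne f

theorem obs : (sysX X).Obs hX.prX where
  cont := fun n h => W_cont n h
  meas := fun n k z => measurable_from_top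
  mart := by
    classical
    intro T R z hT hR hz hzT
    obtain ⟨zn, hzn, hm⟩ := hX.mart z T R hT hR hz hzT
    refine ⟨zn, hzn, fun κ κ' Y hκ hκ' hle hY hY1 => ?_⟩
    set good : ℕ → Prop := fun n => ∀ (h : (X n).C) (k : ℕ), (sysX X).Bef T R n h k →
      k < (X n).K h with hgood
    have hev : ∀ᶠ n in atTop, good n := hX.lt_K
    set κ1 : ℕ → A → ℕ := fun n a => if hg : good n ∧ a ∈ (X n).C then κ n ⟨a, hg.2⟩ else 0
      with hκ1
    set κ2 : ℕ → A → ℕ := fun n a => if hg : good n ∧ a ∈ (X n).C then κ' n ⟨a, hg.2⟩ else 0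
      with hκ2
    set Y1 : ℕ → A → ℝ := fun n a => if hg : good n ∧ a ∈ (X n).C then Y n ⟨a, hg.2⟩ else 0
      with hY1'
    have e1 : ∀ n, good n → ∀ h (hh : h ∈ (X n).C), κ1 n h = κ n ⟨h, hh⟩ := fun n hn h hh => by
      rw [hκ1]; exact dif_pos ⟨hn, hh⟩
    have e2 : ∀ n, good n → ∀ h (hh : h ∈ (X n).C), κ2 n h = κ' n ⟨h, hh⟩ := fun n hn h hh => by
      rw [hκ2]; exact dif_pos ⟨hn, hh⟩
    have e3 : ∀ n, good n → ∀ h (hh : h ∈ (X n).C), Y1 n h = Y n ⟨h, hh⟩ := fun n hn h hh => by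
      rw [hY1']; exact dif_pos ⟨hn, hh⟩
    have f1 : ∀ n, ¬ good n → ∀ h, κ1 n h = 0 := fun n hn h => by
      rw [hκ1]; exact dif_neg fun hc => hn hc.1
    have f2 : ∀ n, ¬ good n → ∀ h, κ2 n h = 0 := fun n hn h => by
      rw [hκ2]; exact dif_neg fun hc => hn hc.1
    have f3 : ∀ n, ¬ good n → ∀ h, Y1 n h = 0 := fun n hn h => by
      rw [hY1']; exact dif_neg fun hc => hn hc.1
    have hlt : ∀ n, ∀ h ∈ (X n).C, κ2 n h < (X n).K h := by
      intro n h hh
      by_cases hn : good n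
      · rw [e2 n hn h hh]
        exact hn ⟨h, hh⟩ _ (hκ'.bef n ⟨h, hh⟩)
      · rw [f2 n hn]
        exact (hX.wf n).pos h hh
    have key := hm κ1 κ2 Y1 ?_ ?_ ?_ hlt ?_ ?_ ?_
    · refine key.congr' ?_
      filter_upwards [hev] with n hn
      rw [← hX.integral_prX n]
      refine integral_congr_ae (Eventually.of_forall fun h => ?_)
      have h1 : κ2 n h = κ' n h := e2 n hn h h.2
      have h2 : κ1 n h = κ n h := e1 n hn h h.2
      have h3 : Y1 n h = Y n h := e3 n hn h h.2
      have h4 : κ' n h < (X n).K h := hn h _ (hκ'.bef n h)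
      have h5 : κ n h < (X n).K h := lt_of_le_of_lt (hle n h) h4
      have h6 : (sysX X).Ta κ' n h = (X n).c h (κ' n h) := Expl.tt_le h4.le
      have h7 : (sysX X).Ta κ n h = (X n).c h (κ n h) := Expl.tt_le h5.le
      change (arg (flow ((X n).W h) ((X n).c h (κ2 n h)) (zn n)) -
        arg (flow ((X n).W h) ((X n).c h (κ1 n h)) (zn n))) * Y1 n h =
        (arg (flow ((sysX X).W n h) ((sysX X).Ta κ' n h) (zn n)) -
        arg (flow ((sysX X).W n h) ((sysX X).Ta κ n h) (zn n))) * Y n h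
      rw [h1, h2, h3, h6, h7]
      rfl
    · intro n h hh h' hh' ha
      by_cases hn : good n
      · rw [e1 n hn h hh, e1 n hn h' hh']
        rw [e1 n hn h hh] at ha
        exact Expl.stop_of (hκ n) (h := ⟨h, hh⟩) (h' := ⟨h', hh'⟩) ha
      · rw [f1 n hn, f1 n hn]
    · intro n h hh h' hh' ha
      by_cases hn : good n
      · rw [e2 n hn h hh, e2 n hn h' hh']
        rw [e2 n hn h hh] at ha
        exact Expl.stop_of (hκ'.stop n) (h := ⟨h, hh⟩) (h' := ⟨h', hh'⟩) ha
      · rw [f2 n hn, f2 n hn]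
    · intro n h hh
      by_cases hn : good n
      · rw [e1 n hn h hh, e2 n hn h hh]
        exact hle n _
      · rw [f1 n hn, f2 n hn]
    · intro n h hh j hj
      by_cases hn : good n
      · rw [e2 n hn h hh] at hj
        have h1 := hn ⟨h, hh⟩ _ (hκ'.bef n ⟨h, hh⟩)
        obtain ⟨h5, h6⟩ := hκ'.bef n ⟨h, hh⟩ j hj
        have e4 : (sysX X).τ n j ⟨h, hh⟩ = (X n).c h j := Expl.tt_le (by
          change j ≤ (X n).K h
          have : κ' n ⟨h, hh⟩ < (X n).K h := h1
          omega)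
        have e5 : (sysX X).V n j ⟨h, hh⟩ = (X n).V h j := Expl.W_tt_le (by
          change j ≤ (X n).K h
          have : κ' n ⟨h, hh⟩ < (X n).K h := h1
          omega)
        rw [e4] at h5
        rw [e5] at h6
        exact ⟨h5, h6⟩
      · rw [f2 n hn] at hj
        exact absurd hj (Nat.not_lt_zero j)
    · intro n h hh h' hh' ha
      by_cases hn : good n
      · rw [e3 n hn h hh, e3 n hn h' hh']
        rw [e1 n hn h hh] at ha
        exact Expl.past_of (hκ n) (hY n) (h := ⟨h, hh⟩) (h' := ⟨h', hh'⟩) ha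
      · rw [f3 n hn, f3 n hn]
    · intro n h hh
      by_cases hn : good n
      · rw [e3 n hn h hh]
        exact hY1 n _
      · rw [f3 n hn, abs_zero]
        exact zero_le_one

/-- **The drivers of the explorations converge in law to `2 B`.** -/
theorem weak [MeasurableSpace C(ℝ≥0, ℝ)] [BorelSpace C(ℝ≥0, ℝ)] :
    ∃ (lam : Measure C(ℝ≥0, ℝ)) (_ : IsProbabilityMeasure lam),
      IsBrownianReal (fun (t : ℝ≥0) (w : C(ℝ≥0, ℝ)) => w t / 2) lam ∧
      ∀ f : C(ℝ≥0, ℝ) → ℝ, Continuous f → (∃ M, ∀ y, |f y| ≤ M) →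
        Tendsto (fun n => Ex (X n).C fun h => f ((X n).w h)) atTop (𝓝 (∫ y, f y ∂lam)) := by
  have hp : ∀ n, IsProbabilityMeasure (hX.prX n) := hX.prX_prob
  obtain ⟨lam, hlam, hB, hlim⟩ := Sys.weak_limit (P := hX.prX) (fun n h => W_cont n h) hX.ok
    (hX.obs.am hX.ok)
  refine ⟨lam, hlam, hB, fun f hf hM => ?_⟩
  refine (hlim f hf hM).congr fun n => ?_
  rw [← hX.integral_prX n]
  refine integral_congr_ae (Eventually.of_forall fun h => ?_)
  change f ((sysX X).path _ n h) = f ((X n).w h)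
  congr 1
  ext t
  change (X n).w h (t : ℝ).toNNReal = _
  rw [Real.toNNReal_coe]

end Asym

end

end Vale.Agent.P153.M1
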